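import Vale.Agent.P247.H74.K2A.Per
import Vale.Agent.P247.H74.K2H.Loc

/-! # P247, package K2A: energy and modulus bounds, bounds for the oscillation and the flux -/

open scoped ContDiff Topology
open Set MeasureTheory Filter Metric

set_option linter.unusedSectionVars false

noncomputable section

namespace Vale.Agent.P247.H74.K2A

variable {E F G : Type*} [NormedAddCommGroup E] [NormedSpace ℝ E] [NormedAddCommGroup F]
  [NormedSpace ℝ F] [NormedAddCommGroup G] [NormedSpace ℝ G]

theorem norm_e (i : Fin 4) : ‖e i‖ = 1 := by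
  have h : ‖e i‖ ≤ 1 := by
    refine (pi_norm_le_iff_of_nonneg zero_le_one).2 fun j => ?_
    unfold e
    rcases eq_or_ne j i with rfl | hj
    · simp
    · rw [Pi.single_eq_of_ne hj]
      simp
  refine le_antisymm h ?_
  have h1 := norm_le_pi_norm (e i) i
  have h2 : e i i = 1 := by simp [e]
  rwa [h2, norm_one] at h1

/-! ## Product rules -/

theorem ds_clm_apply {c : P2 → F →L[ℝ] G} {b : P2 → F} {p : P2} (hc : DifferentiableAt ℝ c p)
    (hb : DifferentiableAt ℝ b p) :
    ds (fun p => c p (b p)) p = (ds c p) (b p) + c p (ds b p) := by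
  unfold ds
  rw [fderiv_clm_apply hc hb]
  simp [add_comm]

theorem dt_clm_apply {c : P2 → F →L[ℝ] G} {b : P2 → F} {p : P2} (hc : DifferentiableAt ℝ c p)
    (hb : DifferentiableAt ℝ b p) :
    dt (fun p => c p (b p)) p = (dt c p) (b p) + c p (dt b p) := by
  unfold dt
  rw [fderiv_clm_apply hc hb]
  simp [add_comm]

theorem ds_clm (L : E →L[ℝ] F) {a : P2 → E} {p : P2} (ha : DifferentiableAt ℝ a p) :
    ds (fun p => L (a p)) p = L (ds a p) := by
  have h : HasFDerivAt (fun p => L (a p)) (L.comp (fderiv ℝ a p)) p :=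
    L.hasFDerivAt.comp p ha.hasFDerivAt
  unfold ds
  rw [h.fderiv]
  rfl

theorem dt_clm (L : E →L[ℝ] F) {a : P2 → E} {p : P2} (ha : DifferentiableAt ℝ a p) :
    dt (fun p => L (a p)) p = L (dt a p) := by
  have h : HasFDerivAt (fun p => L (a p)) (L.comp (fderiv ℝ a p)) p :=
    L.hasFDerivAt.comp p ha.hasFDerivAt
  unfold dt
  rw [h.fderiv]
  rfl

theorem ds_comp {g : E → F} {a : P2 → E} {p : P2} (hg : DifferentiableAt ℝ g (a p))
    (ha : DifferentiableAt ℝ a p) : ds (fun p => g (a p)) p = fderiv ℝ g (a p) (ds a p) := by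
  have h : HasFDerivAt (fun p => g (a p)) ((fderiv ℝ g (a p)).comp (fderiv ℝ a p)) p :=
    hg.hasFDerivAt.comp p ha.hasFDerivAt
  unfold ds
  rw [h.fderiv]
  rfl

theorem dt_comp {g : E → F} {a : P2 → E} {p : P2} (hg : DifferentiableAt ℝ g (a p))
    (ha : DifferentiableAt ℝ a p) : dt (fun p => g (a p)) p = fderiv ℝ g (a p) (dt a p) := by
  have h : HasFDerivAt (fun p => g (a p)) ((fderiv ℝ g (a p)).comp (fderiv ℝ a p)) p :=
    hg.hasFDerivAt.comp p ha.hasFDerivAt
  unfold dt
  rw [h.fderiv]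
  rfl

/-! ## The closed form along a torus -/

theorem κ_swap (o : CForm) (u v : R4) : o.κ v u = -o.κ u v := by
  have h := o.κ_self (u + v)
  simp only [map_add, _root_.add_apply] at h
  rw [o.κ_self, o.κ_self] at h
  linarith

theorem val_swap (o : CForm) (x u v : R4) : o.val x v u = -o.val x u v := by
  unfold CForm.val
  rw [κ_swap]
  ring

theorem val_self (o : CForm) (x u : R4) : o.val x u u = 0 := by
  unfold CForm.val
  rw [o.κ_self]
  ring

theorem val_add_right (o : CForm) (x u v w : R4) :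
    o.val x u (v + w) = o.val x u v + o.val x u w := by
  unfold CForm.val
  simp only [map_add, _root_.add_apply]
  ring

theorem val_smul_right (o : CForm) (x u v : R4) (r : ℝ) :
    o.val x u (r • v) = r * o.val x u v := by
  unfold CForm.val
  simp only [map_smul, _root_.smul_apply, smul_eq_mul]
  ring

theorem val_smul_left (o : CForm) (x u v : R4) (r : ℝ) :
    o.val x (r • u) v = r * o.val x u v := by
  rw [val_swap o x v, val_smul_right, val_swap o x v u]
  ring

/-- pointwise form of Stokes -/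
theorem val_eq (o : CForm) {f : P2 → R4} (hf : ContDiff ℝ ∞ f) (p : P2) :
    o.val (phi f p) (ds (phi f) p) (dt (phi f) p) =
      o.κ (e 2) (e 3) + o.κ (e 2) (dt f p) - o.κ (e 3) (ds f p)
      + 1 / 2 * (ds (fun p => o.κ (f p) (dt f p)) p - dt (fun p => o.κ (f p) (ds f p)) p)
      + (ds (fun p => o.lam (phi f p) (dt (phi f) p)) p -
        dt (fun p => o.lam (phi f p) (ds (phi f) p)) p) := by
  have hd : Differentiable ℝ f := hf.differentiable (by simp)
  have hφ : ContDiff ℝ ∞ (phi f) := contDiff_phi le_rfl hf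
  have hφd : Differentiable ℝ (phi f) := hφ.differentiable (by simp)
  have hfs : Differentiable ℝ (ds f) := (contDiff_ds (m := ∞) hf (by simp)).differentiable (by simp)
  have hft : Differentiable ℝ (dt f) := (contDiff_dt (m := ∞) hf (by simp)).differentiable (by simp)
  have hφs : Differentiable ℝ (ds (phi f)) :=
    (contDiff_ds (m := ∞) hφ (by simp)).differentiable (by simp)
  have hφt : Differentiable ℝ (dt (phi f)) :=
    (contDiff_dt (m := ∞) hφ (by simp)).differentiable (by simp)
  have hκ : DifferentiableAt ℝ (fun p => o.κ (f p)) p :=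
    (o.κ.differentiableAt).comp p (hd p)
  have hlam : DifferentiableAt ℝ (fun p => o.lam (phi f p)) p :=
    (o.lam_smooth.differentiable (by simp) (phi f p)).comp p (hφd p)
  have s1 : ds (fun p => o.κ (f p) (dt f p)) p =
      o.κ (ds f p) (dt f p) + o.κ (f p) (ds (dt f) p) := by
    rw [ds_clm_apply hκ (hft p), ds_clm _ (hd p)]
  have s2 : dt (fun p => o.κ (f p) (ds f p)) p =
      o.κ (dt f p) (ds f p) + o.κ (f p) (dt (ds f) p) := by
    rw [dt_clm_apply hκ (hfs p), dt_clm _ (hd p)]
  have s3 : ds (fun p => o.lam (phi f p) (dt (phi f) p)) p =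
      (fderiv ℝ o.lam (phi f p) (ds (phi f) p)) (dt (phi f) p) +
        o.lam (phi f p) (ds (dt (phi f)) p) := by
    rw [ds_clm_apply hlam (hφt p), ds_comp (o.lam_smooth.differentiable (by simp) _) (hφd p)]
  have s4 : dt (fun p => o.lam (phi f p) (ds (phi f) p)) p =
      (fderiv ℝ o.lam (phi f p) (dt (phi f) p)) (ds (phi f) p) +
        o.lam (phi f p) (dt (ds (phi f)) p) := by
    rw [dt_clm_apply hlam (hφs p), dt_comp (o.lam_smooth.differentiable (by simp) _) (hφd p)]
  have h2 : (2 : WithTop ℕ∞) ≤ ∞ := WithTop.coe_le_coe.2 le_top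
  rw [s1, s2, s3, s4, ds_dt (hf.of_le h2), ds_dt (hφ.of_le h2), κ_swap o (ds f p) (dt f p)]
  unfold CForm.val
  rw [ds_phi (hd p), dt_phi (hd p)]
  simp only [map_add, _root_.add_apply]
  rw [κ_swap o (ds f p) (e 3)]
  ring

/-- **Stokes** -/
theorem mean_val (o : CForm) {f : P2 → R4} (hf : ContDiff ℝ ∞ f) (hp : Per f) :
    mean (fun p => o.val (phi f p) (ds (phi f) p) (dt (phi f) p)) = o.κ (e 2) (e 3) := by
  have hφ : ContDiff ℝ ∞ (phi f) := contDiff_phi le_rfl hf
  have hfd : Differentiable ℝ f := hf.differentiable (by simp)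
  have c1 : ContDiff ℝ 1 (fun p => o.κ (f p) (dt f p)) :=
    (((o.κ.contDiff (n := ∞)).comp hf).clm_apply (contDiff_dt hf (by simp))).of_le (by simp)
  have c2 : ContDiff ℝ 1 (fun p => o.κ (f p) (ds f p)) :=
    (((o.κ.contDiff (n := ∞)).comp hf).clm_apply (contDiff_ds hf (by simp))).of_le (by simp)
  have c3 : ContDiff ℝ 1 (fun p => o.lam (phi f p) (dt (phi f) p)) :=
    ((o.lam_smooth.comp hφ).clm_apply (contDiff_dt hφ (by simp))).of_le (by simp)
  have c4 : ContDiff ℝ 1 (fun p => o.lam (phi f p) (ds (phi f) p)) :=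
    ((o.lam_smooth.comp hφ).clm_apply (contDiff_ds hφ (by simp))).of_le (by simp)
  have p1 : Per (fun p => o.κ (f p) (dt f p)) := fun m n p => by
    simp only
    rw [hp m n p, per_dt hp m n p]
  have p2 : Per (fun p => o.κ (f p) (ds f p)) := fun m n p => by
    simp only
    rw [hp m n p, per_ds hp m n p]
  have p3 : Per (fun p => o.lam (phi f p) (dt (phi f) p)) := fun m n p => by
    simp only
    rw [phi_per hp m n p, o.lam_per, per_dt_phi hp hfd m n p]
  have p4 : Per (fun p => o.lam (phi f p) (ds (phi f) p)) := fun m n p => by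
    simp only
    rw [phi_per hp m n p, o.lam_per, per_ds_phi hp hfd m n p]
  have hfs : Continuous (ds f) := continuous_ds (hf.of_le (by simp))
  have hft : Continuous (dt f) := continuous_dt (hf.of_le (by simp))
  have k1 : Continuous (fun p => o.κ (e 2) (dt f p)) := (o.κ (e 2)).continuous.comp hft
  have k2 : Continuous (fun p => o.κ (e 3) (ds f p)) := (o.κ (e 3)).continuous.comp hfs
  have k3 := continuous_ds c1
  have k4 := continuous_dt c2
  have k5 := continuous_ds c3
  have k6 := continuous_dt c4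
  have hrw : (fun p => o.val (phi f p) (ds (phi f) p) (dt (phi f) p)) = fun p =>
      o.κ (e 2) (e 3) + o.κ (e 2) (dt f p) - o.κ (e 3) (ds f p)
      + 1 / 2 * (ds (fun p => o.κ (f p) (dt f p)) p - dt (fun p => o.κ (f p) (ds f p)) p)
      + (ds (fun p => o.lam (phi f p) (dt (phi f) p)) p -
        dt (fun p => o.lam (phi f p) (ds (phi f) p)) p) := by
    funext p
    exact val_eq o hf p
  rw [hrw]
  have m1 : mean (fun p => o.κ (e 2) (dt f p)) = 0 := by
    rw [mean_clm (o.κ (e 2)) hft, mean_dt (hf.of_le (by simp)) hp, map_zero]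
  have m2 : mean (fun p => o.κ (e 3) (ds f p)) = 0 := by
    rw [mean_clm (o.κ (e 3)) hfs, mean_ds (hf.of_le (by simp)) hp, map_zero]
  have m3 : mean (fun p => (1 / 2 : ℝ) *
      (ds (fun p => o.κ (f p) (dt f p)) p - dt (fun p => o.κ (f p) (ds f p)) p)) = 0 := by
    have := mean_smul (1 / 2 : ℝ) (fun p =>
      ds (fun p => o.κ (f p) (dt f p)) p - dt (fun p => o.κ (f p) (ds f p)) p)
    simp only [smul_eq_mul] at this
    rw [this, mean_sub k3 k4, mean_ds c1 p1, mean_dt c2 p2]
    simp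
  have m4 : mean (fun p => ds (fun p => o.lam (phi f p) (dt (phi f) p)) p -
      dt (fun p => o.lam (phi f p) (ds (phi f) p)) p) = 0 := by
    rw [mean_sub k5 k6, mean_ds c3 p3, mean_dt c4 p4, sub_zero]
  have q1 : Continuous fun p => o.κ (e 2) (e 3) + o.κ (e 2) (dt f p) := continuous_const.add k1
  have q2 : Continuous fun p => o.κ (e 2) (e 3) + o.κ (e 2) (dt f p) - o.κ (e 3) (ds f p) :=
    q1.sub k2
  have q3 : Continuous fun p => (1 / 2 : ℝ) *
      (ds (fun p => o.κ (f p) (dt f p)) p - dt (fun p => o.κ (f p) (ds f p)) p) :=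
    continuous_const.mul (k3.sub k4)
  have q4 : Continuous fun p => o.κ (e 2) (e 3) + o.κ (e 2) (dt f p) - o.κ (e 3) (ds f p) +
      1 / 2 * (ds (fun p => o.κ (f p) (dt f p)) p - dt (fun p => o.κ (f p) (ds f p)) p) :=
    q2.add q3
  have q5 : Continuous fun p => ds (fun p => o.lam (phi f p) (dt (phi f) p)) p -
      dt (fun p => o.lam (phi f p) (ds (phi f) p)) p := k5.sub k6
  rw [mean_add q4 q5, mean_add q2 q3, mean_sub q1 k2, mean_add continuous_const k1, m1, m2, m3,
    m4, mean_const]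
  ring

/-! ## The taming bound -/

theorem continuous_val (o : CForm) :
    Continuous fun q : R4 × R4 × R4 => o.val q.1 q.2.1 q.2.2 := by
  unfold CForm.val
  have h1 : Continuous (fderiv ℝ o.lam) := o.lam_smooth.continuous_fderiv (by simp)
  have h2 : Continuous fun q : R4 × R4 × R4 => (o.κ q.2.1) q.2.2 := by fun_prop
  have h3 : Continuous fun q : R4 × R4 × R4 => (fderiv ℝ o.lam q.1 q.2.1) q.2.2 :=
    ((h1.comp continuous_fst).clm_apply continuous_snd.fst).clm_apply continuous_snd.snd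
  have h4 : Continuous fun q : R4 × R4 × R4 => (fderiv ℝ o.lam q.1 q.2.2) q.2.1 :=
    ((h1.comp continuous_fst).clm_apply continuous_snd.snd).clm_apply continuous_snd.fst
  exact (h2.add h3).sub h4

theorem val_per (o : CForm) (n : Fin 4 → ℤ) (x u v : R4) :
    o.val (fun i => x i + n i) u v = o.val x u v := by
  unfold CForm.val
  rw [K2H.fderiv_per o.lam_per]

theorem tame_bound (D : Data) : ∃ c > 0, ∀ x u, c * ‖u‖ ^ 2 ≤ D.om.val x u (D.J x u) := by
  have hcont : Continuous fun q : R4 × R4 => D.om.val q.1 q.2 (D.J q.1 q.2) := by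
    have h1 : Continuous fun q : R4 × R4 => (q.1, q.2, D.J q.1 q.2) := by
      have := (D.J_smooth.continuous.comp (continuous_fst (X := R4) (Y := R4))).clm_apply
        (continuous_snd (X := R4) (Y := R4))
      exact continuous_fst.prodMk (continuous_snd.prodMk this)
    exact (continuous_val D.om).comp h1
  obtain ⟨q, hq, hmin⟩ := ((isCompact_Icc (a := (0 : R4)) (b := 1)).prod
    (isCompact_sphere (0 : R4) 1)).exists_isMinOn
    ⟨(0, e 0), ⟨⟨le_rfl, zero_le_one⟩, by rw [mem_sphere_zero_iff_norm]; exact norm_e 0⟩⟩ hcont.continuousOn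
  have hq2 : q.2 ≠ 0 := by
    intro h
    have := hq.2
    rw [h, mem_sphere_zero_iff_norm, norm_zero] at this
    norm_num at this
  refine ⟨_, D.tame q.1 q.2 hq2, fun x u => ?_⟩
  rcases eq_or_ne u 0 with rfl | hu
  · rw [norm_zero]
    simp [CForm.val]
  obtain ⟨n, hn⟩ : ∃ n : Fin 4 → ℤ, (fun i => x i + n i) ∈ Icc (0 : R4) 1 := by
    refine ⟨fun i => -⌊x i⌋, ⟨fun i => ?_, fun i => ?_⟩⟩
    · have := Int.floor_le (x i)
      push_cast
      simp only [Pi.zero_apply]
      linarith
    · have := (Int.lt_floor_add_one (x i)).le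
      push_cast
      simp only [Pi.one_apply]
      linarith
  have hun : 0 < ‖u‖ := norm_pos_iff.2 hu
  set w : R4 := ‖u‖⁻¹ • u with hw
  have hwn : w ∈ sphere (0 : R4) 1 := by
    rw [mem_sphere_zero_iff_norm, hw, norm_smul, norm_inv, norm_norm, inv_mul_cancel₀ hun.ne']
  have h1 := hmin (show ((fun i => x i + n i), w) ∈ Icc (0 : R4) 1 ×ˢ sphere (0 : R4) 1 from
    ⟨hn, hwn⟩)
  simp only [mem_ofPred_eq] at h1
  rw [val_per, D.J_per] at h1
  have h2 : u = ‖u‖ • w := by
    rw [hw, smul_smul, mul_inv_cancel₀ hun.ne', one_smul]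
  have h3 : D.om.val x u (D.J x u) = ‖u‖ ^ 2 * D.om.val x w (D.J x w) := by
    conv_lhs => rw [h2]
    rw [map_smul, val_smul_left, val_smul_right]
    ring
  rw [h3, mul_comm]
  exact mul_le_mul_of_nonneg_left h1 (by positivity)

/-! ## K2a -/

theorem sq_mean_le {g : P2 → ℝ} (hg : Continuous g) : mean g ^ 2 ≤ mean (fun p => g p ^ 2) := by
  set m := mean g with hm
  have h1 : 0 ≤ mean (fun p => (g p - m) ^ 2) := by
    unfold mean
    exact setIntegral_nonneg measurableSet_Icc fun p _ => sq_nonneg _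
  have h2 : mean (fun p => (g p - m) ^ 2) = mean (fun p => g p ^ 2) - m ^ 2 := by
    have : (fun p => (g p - m) ^ 2) = fun p => (g p ^ 2 - (2 * m) • g p) + m ^ 2 := by
      funext p
      simp only [smul_eq_mul]
      ring
    rw [this, mean_add (by fun_prop) continuous_const, mean_sub (by fun_prop) (by fun_prop),
      mean_smul, mean_const, ← hm]
    simp only [smul_eq_mul]
    ring
  linarith

theorem K2a : K2a_statement := by
  intro D
  obtain ⟨c, hc, htame⟩ := tame_bound D
  obtain ⟨B, hB, hJ⟩ := K2H.exists_bound D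
  set k := D.om.κ (e 2) (e 3) with hk
  set Q : ℝ := |k| / c + 1 with hQ
  have hQ1 : 1 ≤ Q := by
    have : 0 ≤ |k| / c := by positivity
    linarith
  have hB0 : 0 < B := by linarith
  refine ⟨B ^ 2 * Q + (B * Q + Q) + B ^ 2 * Q ^ 2, by positivity, fun f τ hf => ?_⟩
  have hτ := hf.im_pos
  have hfd : Differentiable ℝ f := hf.smooth.differentiable (by simp)
  have hφ : ContDiff ℝ ∞ (phi f) := contDiff_phi le_rfl hf.smooth
  have hcs : Continuous (ds (phi f)) := continuous_ds (hφ.of_le (by simp))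
  have hct : Continuous (dt (phi f)) := continuous_dt (hφ.of_le (by simp))
  set En := mean (fun p => ‖ds (phi f) p‖ ^ 2) with hEn
  set m₁ := mean (fun p => ‖ds (phi f) p‖) with hm₁
  have hm10 : 0 ≤ m₁ := by
    rw [hm₁]
    unfold mean
    exact setIntegral_nonneg measurableSet_Icc fun p _ => norm_nonneg _
  have hm1E : m₁ ^ 2 ≤ En := sq_mean_le hcs.norm
  -- the energy
  have hstokes : τ.im * mean (fun p => D.om.val (phi f p) (ds (phi f) p)
      (D.J (phi f p) (ds (phi f) p))) = k := by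
    have h1 := mean_val D.om hf.smooth hf.per
    rw [← hk] at h1
    rw [← h1, ← smul_eq_mul, ← mean_smul]
    congr 1
    funext p
    rw [hf.eq p, val_add_right, val_smul_right, val_smul_right, val_self]
    simp
  have hvc : Continuous (fun p => D.om.val (phi f p) (ds (phi f) p)
      (D.J (phi f p) (ds (phi f) p))) := by
    have h1 : Continuous fun p => D.J (phi f p) (ds (phi f) p) :=
      (D.J_smooth.continuous.comp hφ.continuous).clm_apply hcs
    exact (continuous_val D.om).comp (hφ.continuous.prodMk (hcs.prodMk h1))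
  have hcE : c * En ≤ k / τ.im := by
    rw [le_div_iff₀ hτ, ← hstokes, mul_comm]
    refine mul_le_mul_of_nonneg_left ?_ hτ.le
    rw [← smul_eq_mul c, ← mean_smul]
    refine mean_mono (by fun_prop) hvc fun p _ => ?_
    exact htame _ _
  -- the class
  have hmean : ∀ a b : ℝ, mean (fun p => a • ds (phi f) p + b • dt (phi f) p) =
      a • e 2 + b • e 3 := by
    intro a b
    rw [mean_add (by fun_prop) (by fun_prop), mean_smul, mean_smul]
    have h1 : ds (phi f) = fun p => e 2 + ds f p := by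
      funext p
      exact ds_phi (hfd p)
    have h2 : dt (phi f) = fun p => e 3 + dt f p := by
      funext p
      exact dt_phi (hfd p)
    rw [h1, h2, mean_add continuous_const (continuous_ds (hf.smooth.of_le (by simp))),
      mean_add continuous_const (continuous_dt (hf.smooth.of_le (by simp))), mean_const,
      mean_const, mean_ds (hf.smooth.of_le (by simp)) hf.per,
      mean_dt (hf.smooth.of_le (by simp)) hf.per, add_zero, add_zero]
  have hab : ∀ a b : ℝ, ‖a • e 2 + b • e 3‖ ≤ (|a + b * τ.re| + B * |b * τ.im|) * m₁ := by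
    intro a b
    rw [← hmean a b]
    have hpt : ∀ p, ‖a • ds (phi f) p + b • dt (phi f) p‖ ≤
        (|a + b * τ.re| + B * |b * τ.im|) * ‖ds (phi f) p‖ := by
      intro p
      have h1 : a • ds (phi f) p + b • dt (phi f) p =
          (a + b * τ.re) • ds (phi f) p + (b * τ.im) • D.J (phi f p) (ds (phi f) p) := by
        rw [hf.eq p]
        module
      rw [h1]
      refine (norm_add_le _ _).trans ?_
      rw [norm_smul, norm_smul, Real.norm_eq_abs, Real.norm_eq_abs]
      have h2 : ‖D.J (phi f p) (ds (phi f) p)‖ ≤ B * ‖ds (phi f) p‖ :=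
        ((D.J (phi f p)).le_opNorm _).trans
          (mul_le_mul_of_nonneg_right (hJ _).1 (norm_nonneg _))
      have h3 := mul_le_mul_of_nonneg_left h2 (abs_nonneg (b * τ.im))
      linarith
    calc ‖mean (fun p => a • ds (phi f) p + b • dt (phi f) p)‖
        ≤ mean (fun p => ‖a • ds (phi f) p + b • dt (phi f) p‖) :=
          norm_integral_le_integral_norm _
      _ ≤ mean (fun p => (|a + b * τ.re| + B * |b * τ.im|) * ‖ds (phi f) p‖) :=
          mean_mono (by fun_prop) (by fun_prop) fun p _ => hpt p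
      _ = _ := by
          have := mean_smul (|a + b * τ.re| + B * |b * τ.im|) (fun p => ‖ds (phi f) p‖)
          simp only [smul_eq_mul] at this
          exact this
  have hcomp2 : ∀ a b : ℝ, |a| ≤ ‖a • e 2 + b • e 3‖ := by
    intro a b
    have h1 := norm_le_pi_norm (a • e 2 + b • e 3) 2
    have h2 : (a • e 2 + b • e 3) 2 = a := by simp [e]
    rwa [h2, Real.norm_eq_abs] at h1
  have hcomp3 : ∀ a b : ℝ, |b| ≤ ‖a • e 2 + b • e 3‖ := by
    intro a b
    have h1 := norm_le_pi_norm (a • e 2 + b • e 3) 3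
    have h2 : (a • e 2 + b • e 3) 3 = b := by simp [e]
    rwa [h2, Real.norm_eq_abs] at h1
  have i1 : 1 ≤ m₁ := by
    have h1 := (hcomp2 1 0).trans (hab 1 0)
    simpa using h1
  have i2 : 1 ≤ B * τ.im * m₁ := by
    have h1 := (hcomp3 (-τ.re) 1).trans (hab (-τ.re) 1)
    simpa [abs_of_pos hτ] using h1
  have i3 : |τ.re| ≤ B * τ.im * m₁ := by
    have h1 := (hcomp2 (-τ.re) 1).trans (hab (-τ.re) 1)
    simpa [abs_of_pos hτ] using h1
  -- conclusions
  have hE1 : 1 ≤ En := by nlinarith
  have hEc : En * τ.im ≤ Q := by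
    have h1 : c * En * τ.im ≤ k := by
      rwa [le_div_iff₀ hτ] at hcE
    have h2 : En * τ.im ≤ |k| / c := by
      rw [le_div_iff₀ hc]
      calc En * τ.im * c = c * En * τ.im := by ring
        _ ≤ k := h1
        _ ≤ |k| := le_abs_self k
    linarith
  have t1 : τ.im ≤ Q := by nlinarith
  have hsq : m₁ ^ 2 * τ.im ≤ Q :=
    (mul_le_mul_of_nonneg_right hm1E hτ.le).trans hEc
  have t2 : 1 ≤ B ^ 2 * Q * τ.im := by
    have h1 : 1 ≤ (B * τ.im * m₁) ^ 2 := one_le_pow₀ i2
    have h2 : (B * τ.im * m₁) ^ 2 = B ^ 2 * τ.im * (m₁ ^ 2 * τ.im) := by ring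
    rw [h2] at h1
    have h3 := mul_le_mul_of_nonneg_left hsq (by positivity : 0 ≤ B ^ 2 * τ.im)
    linarith
  have t3 : |τ.re| ≤ B * Q := by
    have h1 : |τ.re| ^ 2 ≤ (B * τ.im * m₁) ^ 2 := pow_le_pow_left₀ (abs_nonneg _) i3 2
    have h2 : (B * τ.im * m₁) ^ 2 = B ^ 2 * τ.im * (m₁ ^ 2 * τ.im) := by ring
    rw [h2] at h1
    have h3 := mul_le_mul_of_nonneg_left hsq (by positivity : 0 ≤ B ^ 2 * τ.im)
    have h4 : B ^ 2 * τ.im * Q ≤ B ^ 2 * Q * Q := by
      have := mul_le_mul_of_nonneg_left t1 (by positivity : 0 ≤ B ^ 2 * Q)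
      linarith
    have h5 : |τ.re| ^ 2 ≤ (B * Q) ^ 2 := by
      calc |τ.re| ^ 2 ≤ B ^ 2 * Q * Q := by linarith
        _ = (B * Q) ^ 2 := by ring
    exact (pow_le_pow_iff_left₀ (abs_nonneg _) (by positivity) (by norm_num)).1 h5
  have hQ0 : 0 < Q := by linarith
  refine ⟨?_, ?_, ?_⟩
  · have h1 : 1 / (B ^ 2 * Q) ≤ τ.im := by
      rw [div_le_iff₀ (by positivity)]
      linarith
    refine le_trans (one_div_le_one_div_of_le (by positivity) ?_) h1
    have : 0 ≤ (B * Q + Q) + B ^ 2 * Q ^ 2 := by positivity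
    linarith
  · have h1 : ‖τ‖ ≤ |τ.re| + |τ.im| := Complex.norm_le_abs_re_add_abs_im τ
    rw [abs_of_pos hτ] at h1
    have : 0 ≤ B ^ 2 * Q + B ^ 2 * Q ^ 2 := by positivity
    linarith
  · have h1 : En ≤ B ^ 2 * Q ^ 2 := by
      have h2 : En * 1 ≤ En * (B ^ 2 * Q * τ.im) :=
        mul_le_mul_of_nonneg_left t2 (by linarith)
      have h3 : En * (B ^ 2 * Q * τ.im) = B ^ 2 * Q * (En * τ.im) := by ring
      have h4 := mul_le_mul_of_nonneg_left hEc (by positivity : 0 ≤ B ^ 2 * Q)
      calc En = En * 1 := by ring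
        _ ≤ B ^ 2 * Q * (En * τ.im) := by rw [← h3]; exact h2
        _ ≤ B ^ 2 * Q * Q := h4
        _ = B ^ 2 * Q ^ 2 := by ring
    have : 0 ≤ B ^ 2 * Q + (B * Q + Q) := by positivity
    linarith

/-! ## PB -/

theorem mean_comp_sub {f : P2 → R4} (hf : Continuous f) (p : P2) :
    f p - mean f = mean (fun q => f p - f q) := by
  rw [mean_sub continuous_const hf, mean_const]

theorem osc_bound {f : P2 → R4} (hf : ContDiff ℝ 1 f) (hp : Per f) {A : ℝ}
    (hA : ∀ p, ‖ds f p‖ ≤ A ∧ ‖dt f p‖ ≤ A) (p : P2) : ‖f p - mean f‖ ≤ 2 * A := by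
  have hA0 : 0 ≤ A := (norm_nonneg _).trans (hA 0).1
  have hlip : ∀ x ∈ Icc (0 : P2) 1, ∀ y ∈ Icc (0 : P2) 1, ‖f x - f y‖ ≤ 2 * A := by
    intro x hx y hy
    have h1 := (convex_univ (𝕜 := ℝ) (E := P2)).norm_image_sub_le_of_norm_fderiv_le
      (𝕜 := ℝ) (f := f) (C := 2 * A) (x := y) (y := x)
      (fun z _ => hf.differentiable (by simp) z)
      (fun z _ => norm_fderiv_le (hA z).1 (hA z).2) (mem_univ _) (mem_univ _)
    refine h1.trans ?_
    have h2 : ‖x - y‖ ≤ 1 := by
      rw [Prod.norm_def]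
      refine max_le ?_ ?_
      · rw [Real.norm_eq_abs, abs_le]
        have a1 := hx.1.1
        have a2 := hx.2.1
        have a3 := hy.1.1
        have a4 := hy.2.1
        simp only [Prod.fst_zero, Prod.fst_one] at a1 a2 a3 a4
        simp only [Prod.fst_sub]
        constructor <;> linarith
      · rw [Real.norm_eq_abs, abs_le]
        have a1 := hx.1.2
        have a2 := hx.2.2
        have a3 := hy.1.2
        have a4 := hy.2.2
        simp only [Prod.snd_zero, Prod.snd_one] at a1 a2 a3 a4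
        simp only [Prod.snd_sub]
        constructor <;> linarith
    nlinarith
  obtain ⟨m, n, h1⟩ := exists_mem_Icc p
  rw [← hp m n p, mean_comp_sub hf.continuous]
  exact norm_mean_le fun q hq => hlip _ h1 q hq

theorem PB (hg : K2g_statement) : PB_statement := by
  intro D
  obtain ⟨C, hC, hg⟩ := hg D
  obtain ⟨L, hL⟩ := K2H.bdd_of_per (D.η 0).lam_smooth.continuous (D.η 0).lam_per
  have hL0 : 0 ≤ L := (norm_nonneg _).trans (hL 0)
  set K := ‖(D.η 0).κ‖ with hK
  have hK0 : 0 ≤ K := by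
    rw [hK]
    positivity
  refine ⟨2 * (C + 1) + (L * C + K * (2 * (C + 1)) * (C + 1)), fun f τ hf => ?_⟩
  have hfd : Differentiable ℝ f := hf.smooth.differentiable (by simp)
  have hφ : ContDiff ℝ ∞ (phi f) := contDiff_phi le_rfl hf.smooth
  have hf1 : ContDiff ℝ 1 f := hf.smooth.of_le (by simp)
  have hA : ∀ p, ‖ds f p‖ ≤ C + 1 ∧ ‖dt f p‖ ≤ C + 1 := by
    intro p
    obtain ⟨h1, h2⟩ := hg f τ hf p
    rw [ds_phi (hfd p)] at h1
    rw [dt_phi (hfd p)] at h2
    constructor
    · calc ‖ds f p‖ = ‖(e 2 + ds f p) - e 2‖ := by rw [add_sub_cancel_left]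
        _ ≤ ‖e 2 + ds f p‖ + ‖e 2‖ := norm_sub_le _ _
        _ ≤ C + 1 := by rw [norm_e]; linarith
    · calc ‖dt f p‖ = ‖(e 3 + dt f p) - e 3‖ := by rw [add_sub_cancel_left]
        _ ≤ ‖e 3 + dt f p‖ + ‖e 3‖ := norm_sub_le _ _
        _ ≤ C + 1 := by rw [norm_e]; linarith
  have hosc := osc_bound hf1 hf.per hA
  have hpos2 : 0 ≤ L * C + K * (2 * (C + 1)) * (C + 1) := by positivity
  refine ⟨fun p => (hosc p).trans (by linarith), ?_⟩
  set m := mean f with hm
  -- the general estimate for one component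
  have hcomp : ∀ (d : P2 → R4) (dφ : P2 → R4) (v : R4), Continuous d → Continuous dφ →
      mean d = 0 → (∀ p, ‖d p‖ ≤ C + 1) → (∀ p, ‖dφ p‖ ≤ C) →
      |(mean fun p => (D.η 0).lam (phi f p) (dφ p) - (D.η 0).κ v (f p)
        + (1 / 2) * (D.η 0).κ (f p) (d p)) - (-(D.η 0).κ v m)| ≤
        L * C + K * (2 * (C + 1)) * (C + 1) := by
    intro d dφ v hd hdφ hmd hdb hdφb
    have c1 : Continuous fun p => (D.η 0).lam (phi f p) (dφ p) :=
      ((D.η 0).lam_smooth.continuous.comp hφ.continuous).clm_apply hdφ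
    have c2 : Continuous fun p => (D.η 0).κ v (f p) := by
      have := hf1.continuous
      fun_prop
    have c3 : Continuous fun p => (1 / 2) * (D.η 0).κ (f p) (d p) := by
      have := hf1.continuous
      fun_prop
    have c4 : Continuous fun p => (1 / 2) * (D.η 0).κ (f p - m) (d p) := by
      have := hf1.continuous
      fun_prop
    have e1 : mean (fun p => (D.η 0).κ v (f p)) = (D.η 0).κ v m :=
      mean_clm ((D.η 0).κ v) hf1.continuous
    have e2 : mean (fun p => (1 / 2) * (D.η 0).κ (f p) (d p)) =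
        mean (fun p => (1 / 2) * (D.η 0).κ (f p - m) (d p)) := by
      have h1 : (fun p => (1 / 2) * (D.η 0).κ (f p) (d p)) =
          fun p => (1 / 2) * (D.η 0).κ (f p - m) (d p) + (1 / 2 : ℝ) • (D.η 0).κ m (d p) := by
        funext p
        rw [map_sub, _root_.sub_apply, smul_eq_mul]
        ring
      rw [h1, mean_add c4 (by fun_prop), mean_smul, mean_clm ((D.η 0).κ m) hd, hmd, map_zero]
      simp
    have e3 : (mean fun p => (D.η 0).lam (phi f p) (dφ p) - (D.η 0).κ v (f p)
        + (1 / 2) * (D.η 0).κ (f p) (d p)) - (-(D.η 0).κ v m) =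
        mean (fun p => (D.η 0).lam (phi f p) (dφ p) + (1 / 2) * (D.η 0).κ (f p - m) (d p)) := by
      have c12 : Continuous fun p => (D.η 0).lam (phi f p) (dφ p) - (D.η 0).κ v (f p) :=
        c1.sub c2
      rw [mean_add c12 c3, mean_sub c1 c2, e1, e2, mean_add c1 c4]
      ring
    rw [e3, ← Real.norm_eq_abs]
    refine norm_mean_le fun p _ => ?_
    refine (norm_add_le _ _).trans (add_le_add ?_ ?_)
    · refine (((D.η 0).lam (phi f p)).le_opNorm _).trans ?_
      exact mul_le_mul (hL _) (hdφb p) (norm_nonneg _) hL0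
    · rw [norm_mul]
      have h1 : ‖(D.η 0).κ (f p - m) (d p)‖ ≤ K * (2 * (C + 1)) * (C + 1) := by
        refine ((D.η 0).κ.le_opNorm₂ _ _).trans ?_
        refine mul_le_mul ?_ (hdb p) (norm_nonneg _) (by positivity)
        exact mul_le_mul_of_nonneg_left (hosc p) hK0
      have h2 : ‖(1 / 2 : ℝ)‖ = 1 / 2 := by norm_num
      rw [h2]
      have h3 := norm_nonneg ((D.η 0).κ (f p - m) (d p))
      linarith
  have k1 := hcomp (ds f) (ds (phi f)) (e 2) (continuous_ds hf1)
    (continuous_ds (hφ.of_le (by simp))) (mean_ds hf1 hf.per) (fun p => (hA p).1)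
    (fun p => (hg f τ hf p).1)
  have k2 := hcomp (dt f) (dt (phi f)) (e 3) (continuous_dt hf1)
    (continuous_dt (hφ.of_le (by simp))) (mean_dt hf1 hf.per) (fun p => (hA p).2)
    (fun p => (hg f τ hf p).2)
  have hle : ‖flux D f - Lk D m‖ ≤ L * C + K * (2 * (C + 1)) * (C + 1) := by
    rw [Prod.norm_def]
    exact max_le k1 k2
  refine hle.trans ?_
  have : 0 ≤ 2 * (C + 1) := by linarith
  linarith

end Vale.Agent.P247.H74.K2A
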