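import Vale.Agent.P247.H74.Sta

/-! # P247, package K2A: periodic functions, means, derivatives of `phi f` -/

open scoped ContDiff Topology
open Set MeasureTheory Filter Metric

set_option linter.unusedSectionVars false

noncomputable section

namespace Vale.Agent.P247.H74.K2A

variable {E F : Type*} [NormedAddCommGroup E] [NormedSpace ℝ E] [NormedAddCommGroup F]
  [NormedSpace ℝ F]

/-! ## Calculus of `ds`, `dt` -/

theorem contDiff_lin : ContDiff ℝ ∞ lin := by
  unfold lin
  refine contDiff_pi.2 fun i => ?_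
  fin_cases i <;> simp <;> fun_prop

theorem contDiff_phi {f : P2 → R4} {n : WithTop ℕ∞} (hn : n ≤ ∞) (hf : ContDiff ℝ n f) :
    ContDiff ℝ n (phi f) :=
  (contDiff_lin.of_le hn).add hf

theorem hasFDerivAt_lin (p : P2) : HasFDerivAt lin (fderiv ℝ lin p) p :=
  (contDiff_lin.differentiable (by simp) p).hasFDerivAt

/-- `lin` as a continuous linear map -/
def linL : P2 →L[ℝ] R4 :=
  ContinuousLinearMap.pi ![0, 0, ContinuousLinearMap.fst ℝ ℝ ℝ, ContinuousLinearMap.snd ℝ ℝ ℝ]

theorem linL_apply (p : P2) : linL p = lin p := by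
  funext i
  fin_cases i <;> simp [linL, lin]

theorem lin_eq : lin = linL := by
  funext p
  exact (linL_apply p).symm

theorem fderiv_lin (p : P2) : fderiv ℝ lin p = linL := by
  rw [lin_eq]
  exact linL.fderiv

theorem fderiv_phi {f : P2 → R4} {p : P2} (hf : DifferentiableAt ℝ f p) :
    fderiv ℝ (phi f) p = linL + fderiv ℝ f p := by
  unfold phi
  rw [fderiv_fun_add (contDiff_lin.differentiable (by simp) p) hf, fderiv_lin]

theorem lin_e2 : lin (1, 0) = e 2 := by
  funext i
  fin_cases i <;> simp [lin, e]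

theorem lin_e3 : lin (0, 1) = e 3 := by
  funext i
  fin_cases i <;> simp [lin, e]

theorem ds_phi {f : P2 → R4} {p : P2} (hf : DifferentiableAt ℝ f p) :
    ds (phi f) p = e 2 + ds f p := by
  unfold ds
  rw [fderiv_phi hf]
  show linL (1, 0) + _ = _
  rw [linL_apply, lin_e2]
  rfl

theorem dt_phi {f : P2 → R4} {p : P2} (hf : DifferentiableAt ℝ f p) :
    dt (phi f) p = e 3 + dt f p := by
  unfold dt
  rw [fderiv_phi hf]
  show linL (0, 1) + _ = _
  rw [linL_apply, lin_e3]
  rfl

theorem contDiff_ds {g : P2 → E} {n m : WithTop ℕ∞} (hg : ContDiff ℝ n g) (h : m + 1 ≤ n) :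
    ContDiff ℝ m (ds g) := by
  unfold ds
  exact (hg.fderiv_right h).clm_apply contDiff_const

theorem contDiff_dt {g : P2 → E} {n m : WithTop ℕ∞} (hg : ContDiff ℝ n g) (h : m + 1 ≤ n) :
    ContDiff ℝ m (dt g) := by
  unfold dt
  exact (hg.fderiv_right h).clm_apply contDiff_const

theorem continuous_ds {g : P2 → E} (hg : ContDiff ℝ 1 g) : Continuous (ds g) := by
  unfold ds
  exact (hg.continuous_fderiv (by simp)).clm_apply continuous_const

theorem continuous_dt {g : P2 → E} (hg : ContDiff ℝ 1 g) : Continuous (dt g) := by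
  unfold dt
  exact (hg.continuous_fderiv (by simp)).clm_apply continuous_const

/-- the mixed derivatives agree -/
theorem ds_dt {g : P2 → E} (hg : ContDiff ℝ 2 g) (p : P2) : ds (dt g) p = dt (ds g) p := by
  have hd : DifferentiableAt ℝ (fderiv ℝ g) p :=
    (hg.fderiv_right (m := 1) (by norm_num)).differentiable (by simp) p
  have h1 : ds (dt g) p = fderiv ℝ (fderiv ℝ g) p (1, 0) (0, 1) := by
    unfold ds dt
    rw [fderiv_clm_apply hd (differentiableAt_const _)]
    simp
  have h2 : dt (ds g) p = fderiv ℝ (fderiv ℝ g) p (0, 1) (1, 0) := by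
    unfold ds dt
    rw [fderiv_clm_apply hd (differentiableAt_const _)]
    simp
  have h3 : IsSymmSndFDerivAt ℝ g p := hg.contDiffAt.isSymmSndFDerivAt (by simp)
  rw [h1, h2, h3.eq]

theorem norm_fderiv_le {g : P2 → E} {p : P2} {A : ℝ} (h1 : ‖ds g p‖ ≤ A) (h2 : ‖dt g p‖ ≤ A) :
    ‖fderiv ℝ g p‖ ≤ 2 * A := by
  have hA : 0 ≤ A := (norm_nonneg _).trans h1
  refine ContinuousLinearMap.opNorm_le_bound _ (by linarith) fun v => ?_
  have h3 : v = v.1 • ((1 : ℝ), (0 : ℝ)) + v.2 • ((0 : ℝ), (1 : ℝ)) := by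
    ext <;> simp
  have h4 : fderiv ℝ g p v = v.1 • ds g p + v.2 • dt g p := by
    conv_lhs => rw [h3]
    rw [map_add, map_smul, map_smul]
    rfl
  rw [h4]
  refine (norm_add_le _ _).trans ?_
  rw [norm_smul, norm_smul]
  have h5 : ‖v.1‖ ≤ ‖v‖ := norm_fst_le v
  have h6 : ‖v.2‖ ≤ ‖v‖ := norm_snd_le v
  have := mul_le_mul h5 h1 (norm_nonneg _) (norm_nonneg _)
  have := mul_le_mul h6 h2 (norm_nonneg _) (norm_nonneg _)
  linarith

/-! ## Periodicity -/

theorem per_fderiv {g : P2 → E} (hg : Per g) (m n : ℤ) (p : P2) :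
    fderiv ℝ g (p.1 + m, p.2 + n) = fderiv ℝ g p := by
  have h1 : (fun x : P2 => g (x + ((m : ℝ), (n : ℝ)))) = g := by
    funext x
    exact hg m n x
  have h2 := fderiv_comp_add_right (𝕜 := ℝ) (f := g) (x := p) (((m : ℝ), (n : ℝ)))
  rw [h1] at h2
  exact h2.symm

theorem per_ds {g : P2 → E} (hg : Per g) : Per (ds g) := fun m n p => by
  unfold ds
  rw [per_fderiv hg]

theorem per_dt {g : P2 → E} (hg : Per g) : Per (dt g) := fun m n p => by
  unfold dt
  rw [per_fderiv hg]

/-- `phi f` at a translate -/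
theorem phi_per {f : P2 → R4} (hf : Per f) (m n : ℤ) (p : P2) :
    phi f (p.1 + m, p.2 + n) = fun i => phi f p i + ((![0, 0, m, n] : Fin 4 → ℤ) i : ℝ) := by
  funext i
  unfold phi
  rw [hf m n p]
  simp only [Pi.add_apply]
  fin_cases i <;> simp [lin] <;> ring

/-- periodicity of a function along `phi f` -/
theorem per_comp_phi {f : P2 → R4} (hf : Per f) {g : R4 → E}
    (hg : ∀ (n : Fin 4 → ℤ) (x : R4), g (fun i => x i + n i) = g x) :
    Per (fun p => g (phi f p)) := fun m n p => by
  simp only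
  rw [phi_per hf, hg]

theorem per_ds_phi {f : P2 → R4} (hf : Per f) (hd : Differentiable ℝ f) :
    Per (ds (phi f)) := fun m n p => by
  rw [ds_phi (hd _), ds_phi (hd _), per_ds hf]

theorem per_dt_phi {f : P2 → R4} (hf : Per f) (hd : Differentiable ℝ f) :
    Per (dt (phi f)) := fun m n p => by
  rw [dt_phi (hd _), dt_phi (hd _), per_dt hf]

/-- every point has a translate in the unit square -/
theorem exists_mem_Icc (p : P2) :
    ∃ m n : ℤ, (p.1 + m, p.2 + n) ∈ Icc (0 : P2) 1 := by
  refine ⟨-⌊p.1⌋, -⌊p.2⌋, ⟨⟨?_, ?_⟩, ⟨?_, ?_⟩⟩⟩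
  · have := Int.floor_le p.1
    push_cast
    simp only [Prod.fst_zero]
    linarith
  · have := Int.floor_le p.2
    push_cast
    simp only [Prod.snd_zero]
    linarith
  · have := (Int.lt_floor_add_one p.1).le
    push_cast
    simp only [Prod.fst_one]
    linarith
  · have := (Int.lt_floor_add_one p.2).le
    push_cast
    simp only [Prod.snd_one]
    linarith

theorem per_bdd {g : P2 → E} (hg : Per g) {A : ℝ} (h : ∀ p ∈ Icc (0 : P2) 1, ‖g p‖ ≤ A)
    (p : P2) : ‖g p‖ ≤ A := by
  obtain ⟨m, n, h1⟩ := exists_mem_Icc p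
  rw [← hg m n p]
  exact h _ h1

/-! ## The mean -/

theorem Icc_P2 : Icc (0 : P2) 1 = Icc (0 : ℝ) 1 ×ˢ Icc (0 : ℝ) 1 := Icc_prod_eq _ _

theorem volume_square : (volume : Measure P2).real (Icc (0 : P2) 1) = 1 := by
  have h1 := Icc_P2
  rw [Measure.real, h1, Measure.volume_eq_prod, Measure.prod_prod]
  simp

theorem integrableOn_square {g : P2 → E} (hg : Continuous g) : IntegrableOn g (Icc (0 : P2) 1) :=
  hg.continuousOn.integrableOn_compact isCompact_Icc

theorem mean_add {g h : P2 → E} (hg : Continuous g) (hh : Continuous h) :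
    mean (fun p => g p + h p) = mean g + mean h :=
  integral_add (integrableOn_square hg) (integrableOn_square hh)

theorem mean_sub {g h : P2 → E} (hg : Continuous g) (hh : Continuous h) :
    mean (fun p => g p - h p) = mean g - mean h :=
  integral_sub (integrableOn_square hg) (integrableOn_square hh)

theorem mean_smul (c : ℝ) (g : P2 → E) : mean (fun p => c • g p) = c • mean g :=
  integral_smul c g

theorem mean_const [CompleteSpace E] (c : E) : mean (fun _ => c) = c := by
  unfold mean
  rw [setIntegral_const, volume_square, one_smul]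

theorem mean_clm [CompleteSpace E] [CompleteSpace F] (L : E →L[ℝ] F) {g : P2 → E}
    (hg : Continuous g) : mean (fun p => L (g p)) = L (mean g) :=
  L.integral_comp_comm (integrableOn_square hg)

theorem norm_mean_le {g : P2 → E} {A : ℝ} (hA : ∀ p ∈ Icc (0 : P2) 1, ‖g p‖ ≤ A) :
    ‖mean g‖ ≤ A := by
  unfold mean
  have h := norm_setIntegral_le_of_norm_le_const (μ := (volume : Measure P2))
    (s := Icc (0 : P2) 1) (f := g) (C := A) (by
      rw [Icc_P2, Measure.volume_eq_prod, Measure.prod_prod]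
      simp) hA
  rwa [volume_square, mul_one] at h

theorem mean_mono {g h : P2 → ℝ} (hg : Continuous g) (hh : Continuous h)
    (H : ∀ p ∈ Icc (0 : P2) 1, g p ≤ h p) : mean g ≤ mean h :=
  setIntegral_mono_on (integrableOn_square hg) (integrableOn_square hh) measurableSet_Icc H

/-- Fubini for the mean -/
theorem mean_eq_iterated {g : P2 → E} (hg : Continuous g) :
    mean g = ∫ t in Icc (0 : ℝ) 1, ∫ s in Icc (0 : ℝ) 1, g (s, t) := by
  have h1 := Icc_P2
  have h2 := integrableOn_square hg
  unfold mean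
  rw [IntegrableOn, h1, Measure.volume_eq_prod, ← Measure.prod_restrict] at h2
  rw [h1, Measure.volume_eq_prod, ← Measure.prod_restrict]
  exact integral_prod_symm _ h2

theorem mean_eq_iterated' {g : P2 → E} (hg : Continuous g) :
    mean g = ∫ s in Icc (0 : ℝ) 1, ∫ t in Icc (0 : ℝ) 1, g (s, t) := by
  have h1 := Icc_P2
  have h2 := integrableOn_square hg
  unfold mean
  rw [IntegrableOn, h1, Measure.volume_eq_prod, ← Measure.prod_restrict] at h2
  rw [h1, Measure.volume_eq_prod, ← Measure.prod_restrict]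
  exact integral_prod _ h2

theorem mean_ds [CompleteSpace E] {g : P2 → E} (hg : ContDiff ℝ 1 g) (hp : Per g) :
    mean (ds g) = 0 := by
  rw [mean_eq_iterated (continuous_ds hg)]
  have h1 : ∀ t : ℝ, ∫ s in Icc (0 : ℝ) 1, ds g (s, t) = 0 := by
    intro t
    have hder : ∀ s ∈ uIcc (0 : ℝ) 1, HasDerivAt (fun s => g (s, t)) (ds g (s, t)) s := by
      intro s _
      have h2 : HasDerivAt (fun s : ℝ => (s, t)) ((1 : ℝ), (0 : ℝ)) s :=
        (hasDerivAt_id s).prodMk (hasDerivAt_const s t)
      exact ((hg.differentiable (by simp) (s, t)).hasFDerivAt).comp_hasDerivAt s h2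
    have hcont : Continuous fun s => ds g (s, t) :=
      (continuous_ds hg).comp (by fun_prop)
    have h3 := intervalIntegral.integral_eq_sub_of_hasDerivAt hder
      (hcont.intervalIntegrable _ _)
    rw [integral_Icc_eq_integral_Ioc, ← intervalIntegral.integral_of_le zero_le_one, h3]
    have h4 := hp 1 0 (0, t)
    simp only [Int.cast_one, Int.cast_zero, zero_add, add_zero] at h4
    rw [h4, sub_self]
  simp_rw [h1]
  simp

theorem mean_dt [CompleteSpace E] {g : P2 → E} (hg : ContDiff ℝ 1 g) (hp : Per g) :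
    mean (dt g) = 0 := by
  rw [mean_eq_iterated' (continuous_dt hg)]
  have h1 : ∀ s : ℝ, ∫ t in Icc (0 : ℝ) 1, dt g (s, t) = 0 := by
    intro s
    have hder : ∀ t ∈ uIcc (0 : ℝ) 1, HasDerivAt (fun t => g (s, t)) (dt g (s, t)) t := by
      intro t _
      have h2 : HasDerivAt (fun t : ℝ => (s, t)) ((0 : ℝ), (1 : ℝ)) t :=
        (hasDerivAt_const t s).prodMk (hasDerivAt_id t)
      exact ((hg.differentiable (by simp) (s, t)).hasFDerivAt).comp_hasDerivAt t h2
    have hcont : Continuous fun t => dt g (s, t) :=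
      (continuous_dt hg).comp (by fun_prop)
    have h3 := intervalIntegral.integral_eq_sub_of_hasDerivAt hder
      (hcont.intervalIntegrable _ _)
    rw [integral_Icc_eq_integral_Ioc, ← intervalIntegral.integral_of_le zero_le_one, h3]
    have h4 := hp 0 1 (s, 0)
    simp only [Int.cast_one, Int.cast_zero, zero_add, add_zero] at h4
    rw [h4, sub_self]
  simp_rw [h1]
  simp

end Vale.Agent.P247.H74.K2A
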